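import Mathlib

/-!
# P229: smooth local realization of metrics with a nonvanishing Killing field

Let `g = E(u) du² + 2 F(u) du dv + G(u) dv²` be a smooth Riemannian metric whose coefficients do not depend on `v`
(near a point where a Killing field does not vanish every metric has this form in suitable coordinates). There is no
restriction on the curvature `K(u)`, which may vanish to infinite order and change sign in any way. Then `g` has a
`C^∞` isometric immersion into `ℝ³` near every point: with `r = a √G`, `ψ' = F/G`,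
`z'² = (E G - F²)/G - a² G'²/(4 G)` and `a > 0` small, take `X(u,v) = (r cos((v+ψ)/a), r sin((v+ψ)/a), z)`.
-/

namespace Vale.Agent.Results.P229.KillingField

open Set MeasureTheory
open scoped Topology ContDiff

private theorem smooth_prim {f : ℝ → ℝ} (hf : Continuous f) {I : Set ℝ} (hI : IsOpen I)
    (hfI : ContDiffOn ℝ ∞ f I) (u₀ : ℝ) :
    ContDiffOn ℝ ∞ (fun u => ∫ t in u₀..u, f t) I := by
  have hd : ∀ u, HasDerivAt (fun u => ∫ t in u₀..u, f t) (f u) u := fun u =>
    intervalIntegral.integral_hasDerivAt_right (hf.intervalIntegrable _ _)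
      (hf.stronglyMeasurableAtFilter _ _) hf.continuousAt
  rw [contDiffOn_infty_iff_deriv_of_isOpen hI]
  refine ⟨fun u _ => (hd u).differentiableAt.differentiableWithinAt, ?_⟩
  refine hfI.congr fun u _ => (hd u).deriv

private theorem dot3 (a b c a' b' c' : ℝ) :
    dotProduct ![a, b, c] ![a', b', c'] = a * a' + b * b' + c * c' := by
  simp [dotProduct, Fin.sum_univ_three]

theorem result (E F G : ℝ → ℝ) (hE : ContDiff ℝ ∞ E) (hF : ContDiff ℝ ∞ F)
    (hG : ContDiff ℝ ∞ G) (hG0 : ∀ u, 0 < G u) (hdet : ∀ u, 0 < E u * G u - F u ^ 2)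
    (u₀ v₀ : ℝ) :
    ∃ U : Set (ℝ × ℝ), IsOpen U ∧ (u₀, v₀) ∈ U ∧ ∃ X : ℝ × ℝ → Fin 3 → ℝ, ContDiffOn ℝ ∞ X U ∧
      ∀ p ∈ U,
        dotProduct (deriv (fun t => X (t, p.2)) p.1) (deriv (fun t => X (t, p.2)) p.1) = E p.1 ∧
        dotProduct (deriv (fun t => X (t, p.2)) p.1) (deriv (fun t => X (p.1, t)) p.2) = F p.1 ∧
        dotProduct (deriv (fun t => X (p.1, t)) p.2) (deriv (fun t => X (p.1, t)) p.2) = G p.1 := by
  have hGd : ∀ u, HasDerivAt G (deriv G u) u := fun u =>
    (hG.differentiable (by simp) u).hasDerivAt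
  have hG' : ContDiff ℝ ∞ (deriv G) := (contDiff_infty_iff_deriv.1 hG).2
  set D : ℝ → ℝ := fun u => (E u * G u - F u ^ 2) / G u with hD
  have hDs : ContDiff ℝ ∞ D := ((hE.mul hG).sub (hF.pow 2)).div hG fun u => (hG0 u).ne'
  have hD0 : 0 < D u₀ := div_pos (hdet u₀) (hG0 u₀)
  set B : ℝ → ℝ := fun u => deriv G u ^ 2 / (4 * G u) with hB
  have hBs : ContDiff ℝ ∞ B :=
    (hG'.pow 2).div (contDiff_const.mul hG) fun u => by have := hG0 u; positivity
  have hB0 : 0 ≤ B u₀ := by have := hG0 u₀; positivity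
  obtain ⟨a, ha, haD⟩ : ∃ a : ℝ, 0 < a ∧ a ^ 2 * B u₀ < D u₀ := by
    refine ⟨√(D u₀ / (2 * (B u₀ + 1))), by positivity, ?_⟩
    rw [Real.sq_sqrt (by positivity), div_mul_eq_mul_div, div_lt_iff₀ (by positivity)]
    nlinarith
  set Q : ℝ → ℝ := fun u => D u - a ^ 2 * B u with hQ
  have hQs : ContDiff ℝ ∞ Q := hDs.sub (contDiff_const.mul hBs)
  have hQ0 : 0 < Q u₀ := by simp only [hQ]; linarith
  set I : Set ℝ := {u | 0 < Q u} with hI
  have hIo : IsOpen I := isOpen_lt continuous_const hQs.continuous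
  set z : ℝ → ℝ := fun u => ∫ t in u₀..u, √(Q t) with hz
  have hQc : Continuous fun t => √(Q t) := hQs.continuous.sqrt
  have hzs : ContDiffOn ℝ ∞ z I :=
    smooth_prim hQc hIo (hQs.contDiffOn.sqrt fun u hu => (ne_of_gt hu)) u₀
  have hzd : ∀ u, HasDerivAt z (√(Q u)) u := fun u =>
    intervalIntegral.integral_hasDerivAt_right (hQc.intervalIntegrable _ _)
      (hQc.stronglyMeasurableAtFilter _ _) hQc.continuousAt
  set ψ : ℝ → ℝ := fun u => ∫ t in u₀..u, F t / G t with hψ
  have hFG : ContDiff ℝ ∞ fun t => F t / G t := hF.div hG fun u => (hG0 u).ne'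
  have hψs : ContDiff ℝ ∞ ψ := by
    rw [← contDiffOn_univ]
    exact smooth_prim hFG.continuous isOpen_univ hFG.contDiffOn u₀
  have hψd : ∀ u, HasDerivAt ψ (F u / G u) u := fun u =>
    intervalIntegral.integral_hasDerivAt_right (hFG.continuous.intervalIntegrable _ _)
      (hFG.continuous.stronglyMeasurableAtFilter _ _) hFG.continuous.continuousAt
  set r : ℝ → ℝ := fun u => a * √(G u) with hr
  have hrs : ContDiff ℝ ∞ r := contDiff_const.mul (hG.sqrt fun u => (hG0 u).ne')
  have hrd : ∀ u, HasDerivAt r (a * (deriv G u / (2 * √(G u)))) u := fun u =>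
    ((hGd u).sqrt (hG0 u).ne').const_mul a
  set X : ℝ × ℝ → Fin 3 → ℝ := fun p =>
    ![r p.1 * Real.cos ((p.2 + ψ p.1) / a), r p.1 * Real.sin ((p.2 + ψ p.1) / a), z p.1] with hX
  refine ⟨{p | p.1 ∈ I}, hIo.preimage continuous_fst, hQ0, X, ?_, ?_⟩
  · rw [contDiffOn_pi]
    have h1 : ContDiff ℝ ∞ fun p : ℝ × ℝ => r p.1 := hrs.comp contDiff_fst
    have h2 : ContDiff ℝ ∞ fun p : ℝ × ℝ => (p.2 + ψ p.1) / a :=
      (contDiff_snd.add (hψs.comp contDiff_fst)).div_const a
    intro i
    fin_cases i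
    · exact (h1.mul h2.cos).contDiffOn
    · exact (h1.mul h2.sin).contDiffOn
    · exact hzs.comp contDiffOn_fst fun p hp => hp
  · rintro ⟨u, v⟩ hu
    have hu' : 0 < Q u := hu
    set α : ℝ := (v + ψ u) / a with hα
    have hα1 : HasDerivAt (fun t => (v + ψ t) / a) (F u / G u / a) u :=
      ((hψd u).const_add v).div_const a
    have hα2 : HasDerivAt (fun t => (t + ψ u) / a) (1 / a) v :=
      ((hasDerivAt_id v).add_const (ψ u)).div_const a
    have hXu : HasDerivAt (fun t => X (t, v))
        ![a * (deriv G u / (2 * √(G u))) * Real.cos α + r u * (-Real.sin α * (F u / G u / a)),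
          a * (deriv G u / (2 * √(G u))) * Real.sin α + r u * (Real.cos α * (F u / G u / a)),
          √(Q u)] u := by
      rw [hasDerivAt_pi]
      intro i
      fin_cases i
      · exact (hrd u).mul hα1.cos
      · exact (hrd u).mul hα1.sin
      · exact hzd u
    have hXv : HasDerivAt (fun t => X (u, t))
        ![r u * (-Real.sin α * (1 / a)), r u * (Real.cos α * (1 / a)), 0] v := by
      rw [hasDerivAt_pi]
      intro i
      fin_cases i
      · exact hα2.cos.const_mul (r u)
      · exact hα2.sin.const_mul (r u)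
      · exact hasDerivAt_const v (z u)
    have hcs := Real.sin_sq_add_cos_sq α
    have hG1 := hG0 u
    have hsG : √(G u) ^ 2 = G u := Real.sq_sqrt hG1.le
    have hsG0 : 0 < √(G u) := Real.sqrt_pos.2 hG1
    have hsQ : √(Q u) ^ 2 = Q u := Real.sq_sqrt hu'.le
    simp only
    rw [hXu.deriv, hXv.deriv]
    refine ⟨?_, ?_, ?_⟩
    · rw [dot3]
      have h1 : a * (deriv G u / (2 * √(G u))) * (a * (deriv G u / (2 * √(G u)))) =
          a ^ 2 * B u := by
        simp only [hB]
        rw [show a * (deriv G u / (2 * √(G u))) * (a * (deriv G u / (2 * √(G u)))) =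
          a ^ 2 * (deriv G u ^ 2 / (4 * √(G u) ^ 2)) by ring, hsG]
      have h2 : r u * (F u / G u / a) * (r u * (F u / G u / a)) = F u ^ 2 / G u := by
        simp only [hr]
        rw [show a * √(G u) * (F u / G u / a) * (a * √(G u) * (F u / G u / a)) =
          √(G u) ^ 2 * (F u / G u) ^ 2 * (a / a) ^ 2 by ring, hsG, div_self ha.ne']
        field_simp
      have h3 : √(Q u) * √(Q u) = D u - a ^ 2 * B u := by
        rw [← pow_two, hsQ]
      have h4 : D u = E u - F u ^ 2 / G u := by
        simp only [hD]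
        field_simp
      have h5 : ∀ x y c s : ℝ, (x * c + y * (-s * 1)) * (x * c + y * (-s * 1)) +
          (x * s + y * (c * 1)) * (x * s + y * (c * 1)) = (s ^ 2 + c ^ 2) * (x * x + y * y) :=
        fun x y c s => by ring
      have h6 := h5 (a * (deriv G u / (2 * √(G u)))) (r u * (F u / G u / a)) (Real.cos α)
        (Real.sin α)
      rw [hcs, one_mul, h1, h2] at h6
      rw [h3, h4]
      linear_combination h6
    · rw [dot3]
      have h2 : r u * (F u / G u / a) * (r u * (1 / a)) = F u := by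
        simp only [hr]
        rw [show a * √(G u) * (F u / G u / a) * (a * √(G u) * (1 / a)) =
          √(G u) ^ 2 * (F u / G u) * (a / a) ^ 2 by ring, hsG, div_self ha.ne']
        field_simp
      linear_combination (r u * (F u / G u / a) * (r u * (1 / a))) * hcs + h2
    · rw [dot3]
      have h2 : r u * (1 / a) * (r u * (1 / a)) = G u := by
        simp only [hr]
        rw [show a * √(G u) * (1 / a) * (a * √(G u) * (1 / a)) =
          √(G u) ^ 2 * (a / a) ^ 2 by ring, hsG, div_self ha.ne']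
        ring
      linear_combination (r u * (1 / a) * (r u * (1 / a))) * hcs + h2

end Vale.Agent.Results.P229.KillingField
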