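import Mathlib

/-!
# P229: smooth metrics with a nonvanishing Killing field are locally smoothly realizable in `ℝ³`

Near a point where a Killing field does not vanish a metric is the pull-back `φ^* h` of a metric
`h = E(x) dx² + 2 F(x) dx dy + G(x) dy²` with coefficients depending on `x` only (`∂_y` is the Killing field). The
surface `(√G(x)/c cos c(y + α(x)), √G(x)/c sin c(y + α(x)), z(x))` with `α' = F/G`,
`z' = √(E - F²/G - (√G)'²/c²)`, `c` large, has first fundamental form `h`. The curvature `K = K(x)` is an arbitrary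
smooth function of `x`, it may vanish to infinite order and change sign infinitely often at the given point.
-/

namespace Vale.Agent.Results.P229.KillingMetrics

open Set MeasureTheory
open scoped ContDiff

private theorem prim {a b x₀ : ℝ} (hx₀ : x₀ ∈ Ioo a b) {f : ℝ → ℝ}
    (hf : ContDiffOn ℝ ∞ f (Ioo a b)) :
    ∃ h : ℝ → ℝ, ContDiffOn ℝ ∞ h (Ioo a b) ∧ ∀ x ∈ Ioo a b, HasDerivAt h (f x) x := by
  have hd : ∀ x ∈ Ioo a b, HasDerivAt (fun u => ∫ t in x₀..u, f t) (f x) x := by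
    intro x hx
    refine intervalIntegral.integral_hasDerivAt_right ?_ ?_ ?_
    · refine (hf.continuousOn.mono ?_).intervalIntegrable
      exact (convex_Ioo a b).ordConnected.uIcc_subset hx₀ hx
    · exact hf.continuousOn.stronglyMeasurableAtFilter isOpen_Ioo x hx
    · exact hf.continuousOn.continuousAt (isOpen_Ioo.mem_nhds hx)
  refine ⟨_, ?_, hd⟩
  rw [contDiffOn_infty_iff_deriv_of_isOpen isOpen_Ioo]
  exact ⟨fun x hx => (hd x hx).differentiableAt.differentiableWithinAt,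
    hf.congr fun x hx => (hd x hx).deriv⟩

/-- the surface -/
private theorem core {I : Set ℝ} (hI : IsOpen I) {E F G : ℝ → ℝ} (hE : ContDiffOn ℝ ∞ E I)
    (hF : ContDiffOn ℝ ∞ F I) (hG : ContDiffOn ℝ ∞ G I)
    (hpos : ∀ x ∈ I, 0 < G x ∧ F x ^ 2 < E x * G x) {x₀ : ℝ} (hx₀ : x₀ ∈ I) :
    ∃ J : Set ℝ, IsOpen J ∧ x₀ ∈ J ∧ J ⊆ I ∧ ∃ X : ℝ × ℝ → EuclideanSpace ℝ (Fin 3),
      ContDiffOn ℝ ∞ X (J ×ˢ univ) ∧ ∀ q ∈ J ×ˢ (univ : Set ℝ), ∀ v w : ℝ × ℝ,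
        inner ℝ (fderiv ℝ X q v) (fderiv ℝ X q w) =
          E q.1 * (v.1 * w.1) + F q.1 * (v.1 * w.2 + v.2 * w.1) + G q.1 * (v.2 * w.2) := by
  -- the radius
  have hs : ContDiffOn ℝ ∞ (fun x => √(G x)) I := hG.sqrt fun x hx => (hpos x hx).1.ne'
  have hs' : ContDiffOn ℝ ∞ (deriv fun x => √(G x)) I :=
    ((contDiffOn_infty_iff_deriv_of_isOpen hI).1 hs).2
  have hsd : ∀ x ∈ I, HasDerivAt (fun x => √(G x)) (deriv (fun x => √(G x)) x) x := fun x hx =>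
    ((((contDiffOn_infty_iff_deriv_of_isOpen hI).1 hs).1 x hx).differentiableAt
      (hI.mem_nhds hx)).hasDerivAt
  set s : ℝ → ℝ := fun x => √(G x) with hsdef
  set s' : ℝ → ℝ := deriv s with hs'def
  have hs2 : ∀ x ∈ I, s x ^ 2 = G x := fun x hx => Real.sq_sqrt (hpos x hx).1.le
  have hD : ContDiffOn ℝ ∞ (fun x => E x - F x ^ 2 / G x) I :=
    hE.sub ((hF.pow 2).div hG fun x hx => (hpos x hx).1.ne')
  have hDpos : ∀ x ∈ I, 0 < E x - F x ^ 2 / G x := by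
    intro x hx
    rw [sub_pos, div_lt_iff₀ (hpos x hx).1]
    exact (hpos x hx).2
  -- the scale
  obtain ⟨c, hc, hc0⟩ : ∃ c : ℝ, 0 < c ∧ 0 < (E x₀ - F x₀ ^ 2 / G x₀) - s' x₀ ^ 2 / c ^ 2 := by
    refine ⟨(|s' x₀| + 1) / √(E x₀ - F x₀ ^ 2 / G x₀), ?_, ?_⟩
    · exact div_pos (by positivity) (Real.sqrt_pos.2 (hDpos x₀ hx₀))
    · have h1 := hDpos x₀ hx₀
      rw [div_pow, Real.sq_sqrt h1.le, div_div_eq_mul_div, sub_pos, div_lt_iff₀ (by positivity),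
        mul_comm]
      refine mul_lt_mul_of_pos_left ?_ h1
      rw [← sq_abs]
      have := abs_nonneg (s' x₀)
      nlinarith
  have hP0 : ContDiffOn ℝ ∞ (fun x => (E x - F x ^ 2 / G x) - s' x ^ 2 / c ^ 2) I :=
    hD.sub ((hs'.pow 2).div contDiffOn_const fun x _ => (by positivity))
  have hopen : IsOpen (I ∩ (fun x => (E x - F x ^ 2 / G x) - s' x ^ 2 / c ^ 2) ⁻¹' (Ioi 0)) :=
    hP0.continuousOn.isOpen_inter_preimage hI isOpen_Ioi
  obtain ⟨r, hr, hball⟩ := Metric.isOpen_iff.1 hopen x₀ ⟨hx₀, hc0⟩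
  rw [Real.ball_eq_Ioo] at hball
  have hJ : Ioo (x₀ - r) (x₀ + r) ⊆ I := fun x hx => (hball hx).1
  have hx₀J : x₀ ∈ Ioo (x₀ - r) (x₀ + r) := ⟨by linarith, by linarith⟩
  have hP : ContDiffOn ℝ ∞ (fun x => √((E x - F x ^ 2 / G x) - s' x ^ 2 / c ^ 2))
      (Ioo (x₀ - r) (x₀ + r)) := (hP0.mono hJ).sqrt fun x hx => (ne_of_gt (hball hx).2)
  have hQ : ContDiffOn ℝ ∞ (fun x => F x / G x) (Ioo (x₀ - r) (x₀ + r)) :=
    (hF.mono hJ).div (hG.mono hJ) fun x hx => (hpos x (hJ hx)).1.ne'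
  obtain ⟨z, hz, hzd⟩ := prim hx₀J hP
  obtain ⟨α, hα, hαd⟩ := prim hx₀J hQ
  refine ⟨Ioo (x₀ - r) (x₀ + r), isOpen_Ioo, hx₀J, hJ,
    fun q => !₂[s q.1 / c * Real.cos (c * (q.2 + α q.1)), s q.1 / c * Real.sin (c * (q.2 + α q.1)),
      z q.1], ?_, ?_⟩
  · have hfst : ContDiffOn ℝ ∞ (fun q : ℝ × ℝ => q.1) (Ioo (x₀ - r) (x₀ + r) ×ˢ univ) :=
      contDiff_fst.contDiffOn
    have hsnd : ContDiffOn ℝ ∞ (fun q : ℝ × ℝ => q.2) (Ioo (x₀ - r) (x₀ + r) ×ˢ univ) :=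
      contDiff_snd.contDiffOn
    have hm : MapsTo (fun q : ℝ × ℝ => q.1) (Ioo (x₀ - r) (x₀ + r) ×ˢ univ)
        (Ioo (x₀ - r) (x₀ + r)) := fun q hq => hq.1
    have h1 : ContDiffOn ℝ ∞ (fun q : ℝ × ℝ => s q.1 / c) (Ioo (x₀ - r) (x₀ + r) ×ˢ univ) :=
      ((hs.mono hJ).comp hfst hm).div_const c
    have h2 : ContDiffOn ℝ ∞ (fun q : ℝ × ℝ => c * (q.2 + α q.1))
        (Ioo (x₀ - r) (x₀ + r) ×ˢ univ) := contDiffOn_const.mul (hsnd.add (hα.comp hfst hm))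
    rw [contDiffOn_euclidean]
    intro i
    fin_cases i
    · exact h1.mul h2.cos
    · exact h1.mul h2.sin
    · exact hz.comp hfst hm
  · rintro ⟨x, y⟩ ⟨hx, -⟩ v w
    have hxI := hJ hx
    have hfst : HasFDerivAt (fun q : ℝ × ℝ => q.1) (ContinuousLinearMap.fst ℝ ℝ ℝ) (x, y) :=
      hasFDerivAt_fst
    have hsnd : HasFDerivAt (fun q : ℝ × ℝ => q.2) (ContinuousLinearMap.snd ℝ ℝ ℝ) (x, y) :=
      hasFDerivAt_snd
    have had : HasDerivAt (fun x => s x / c) (s' x / c) x := (hsd x hxI).div_const c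
    have ha : HasFDerivAt (fun q : ℝ × ℝ => s q.1 / c)
        ((s' x / c) • ContinuousLinearMap.fst ℝ ℝ ℝ) (x, y) :=
      HasDerivAt.comp_hasFDerivAt (h₂ := fun x => s x / c) (x, y) had hfst
    have hαf : HasFDerivAt (fun q : ℝ × ℝ => α q.1)
        ((F x / G x) • ContinuousLinearMap.fst ℝ ℝ ℝ) (x, y) :=
      (hαd x hx).comp_hasFDerivAt (x, y) hfst
    have ht : HasFDerivAt (fun q : ℝ × ℝ => c * (q.2 + α q.1))
        (c • (ContinuousLinearMap.snd ℝ ℝ ℝ + (F x / G x) • ContinuousLinearMap.fst ℝ ℝ ℝ)) (x, y) :=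
      (hsnd.add hαf).const_mul c
    have hzf : HasFDerivAt (fun q : ℝ × ℝ => z q.1)
        (√((E x - F x ^ 2 / G x) - s' x ^ 2 / c ^ 2) • ContinuousLinearMap.fst ℝ ℝ ℝ) (x, y) :=
      (hzd x hx).comp_hasFDerivAt (x, y) hfst
    have h0 : HasFDerivAt (fun q : ℝ × ℝ => s q.1 / c * Real.cos (c * (q.2 + α q.1))) _ (x, y) :=
      ha.mul ht.cos
    have h1 : HasFDerivAt (fun q : ℝ × ℝ => s q.1 / c * Real.sin (c * (q.2 + α q.1))) _ (x, y) :=
      ha.mul ht.sin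
    set X : ℝ × ℝ → EuclideanSpace ℝ (Fin 3) := fun q =>
      !₂[s q.1 / c * Real.cos (c * (q.2 + α q.1)), s q.1 / c * Real.sin (c * (q.2 + α q.1)),
        z q.1] with hX
    have hXd : DifferentiableAt ℝ X (x, y) := by
      rw [differentiableAt_euclidean]
      intro i
      fin_cases i
      · exact h0.differentiableAt
      · exact h1.differentiableAt
      · exact hzf.differentiableAt
    have hcomp : ∀ (i : Fin 3) (v : ℝ × ℝ), (fderiv ℝ X (x, y) v) i =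
        fderiv ℝ (fun q => X q i) (x, y) v := by
      intro i v
      have h := (EuclideanSpace.proj (𝕜 := ℝ) i).hasFDerivAt.comp (x, y) hXd.hasFDerivAt
      have h' : HasFDerivAt (fun q => X q i)
          ((EuclideanSpace.proj (𝕜 := ℝ) i).comp (fderiv ℝ X (x, y))) (x, y) := h
      rw [h'.fderiv]
      rfl
    have e0 : ∀ v : ℝ × ℝ, (fderiv ℝ X (x, y) v) 0 = s x / c * (-Real.sin (c * (y + α x)) *
        (c * (v.2 + F x / G x * v.1))) + Real.cos (c * (y + α x)) * (s' x / c * v.1) := by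
      intro v
      rw [hcomp]
      have : (fun q => X q 0) = fun q : ℝ × ℝ => s q.1 / c * Real.cos (c * (q.2 + α q.1)) := rfl
      rw [this, h0.fderiv]
      simp
      ring
    have e1 : ∀ v : ℝ × ℝ, (fderiv ℝ X (x, y) v) 1 = s x / c * (Real.cos (c * (y + α x)) *
        (c * (v.2 + F x / G x * v.1))) + Real.sin (c * (y + α x)) * (s' x / c * v.1) := by
      intro v
      rw [hcomp]
      have : (fun q => X q 1) = fun q : ℝ × ℝ => s q.1 / c * Real.sin (c * (q.2 + α q.1)) := rfl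
      rw [this, h1.fderiv]
      simp
      ring
    have e2 : ∀ v : ℝ × ℝ, (fderiv ℝ X (x, y) v) 2 =
        √((E x - F x ^ 2 / G x) - s' x ^ 2 / c ^ 2) * v.1 := by
      intro v
      rw [hcomp]
      have : (fun q => X q 2) = fun q : ℝ × ℝ => z q.1 := rfl
      rw [this, hzf.fderiv]
      simp
    have hpy := Real.sin_sq_add_cos_sq (c * (y + α x))
    have hP2 : √((E x - F x ^ 2 / G x) - s' x ^ 2 / c ^ 2) ^ 2 =
        (E x - F x ^ 2 / G x) - s' x ^ 2 / c ^ 2 := Real.sq_sqrt (le_of_lt (hball hx).2)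
    rw [PiLp.inner_apply, Fin.sum_univ_three]
    simp only [RCLike.inner_apply, conj_trivial, e0, e1, e2]
    generalize Real.sin (c * (y + α x)) = S at hpy ⊢
    generalize Real.cos (c * (y + α x)) = K at hpy ⊢
    generalize √((E x - F x ^ 2 / G x) - s' x ^ 2 / c ^ 2) = P at hP2 ⊢
    have hG0 := (hpos x hxI).1.ne'
    have hsx := hs2 x hxI
    have hgoal : s x ^ 2 * ((v.2 + F x / G x * v.1) * (w.2 + F x / G x * w.1)) * (S ^ 2 + K ^ 2) +
        (s' x ^ 2 / c ^ 2) * (v.1 * w.1) * (S ^ 2 + K ^ 2) + P ^ 2 * (v.1 * w.1) =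
        E x * (v.1 * w.1) + F x * (v.1 * w.2 + v.2 * w.1) + G x * (v.2 * w.2) := by
      rw [hpy, hP2, hsx]
      field_simp
      ring
    rw [← hgoal]
    field_simp
    ring

/-- a metric `g` near a point which is the pull-back `φ^* h` of a metric
`h = E(x) dx² + 2 F(x) dx dy + G(x) dy²` with smooth coefficients depending on `x` only has a local
`C^∞` isometric immersion into Euclidean `ℝ³` -/
theorem result (Ω : Set (ℝ × ℝ)) (hΩ : IsOpen Ω) (g : ℝ × ℝ → ℝ × ℝ → ℝ × ℝ → ℝ)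
    (φ : ℝ × ℝ → ℝ × ℝ) (hφ : ContDiffOn ℝ ∞ φ Ω) (I : Set ℝ) (hI : IsOpen I)
    (hφI : ∀ q ∈ Ω, (φ q).1 ∈ I) (E F G : ℝ → ℝ) (hE : ContDiffOn ℝ ∞ E I)
    (hF : ContDiffOn ℝ ∞ F I) (hG : ContDiffOn ℝ ∞ G I)
    (hpos : ∀ x ∈ I, 0 < G x ∧ F x ^ 2 < E x * G x)
    (hg : ∀ q ∈ Ω, ∀ v w : ℝ × ℝ, g q v w =
      E (φ q).1 * ((fderiv ℝ φ q v).1 * (fderiv ℝ φ q w).1) +
      F (φ q).1 * ((fderiv ℝ φ q v).1 * (fderiv ℝ φ q w).2 +
        (fderiv ℝ φ q v).2 * (fderiv ℝ φ q w).1) +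
      G (φ q).1 * ((fderiv ℝ φ q v).2 * (fderiv ℝ φ q w).2))
    (p : ℝ × ℝ) (hp : p ∈ Ω) :
    ∃ U : Set (ℝ × ℝ), IsOpen U ∧ p ∈ U ∧ U ⊆ Ω ∧
      ∃ X : ℝ × ℝ → EuclideanSpace ℝ (Fin 3), ContDiffOn ℝ ∞ X U ∧
        ∀ q ∈ U, ∀ v w : ℝ × ℝ, inner ℝ (fderiv ℝ X q v) (fderiv ℝ X q w) = g q v w := by
  obtain ⟨J, hJo, hpJ, hJI, X, hX, hin⟩ := core hI hE hF hG hpos (hφI p hp)
  have hW : IsOpen (J ×ˢ (univ : Set ℝ)) := hJo.prod isOpen_univ
  refine ⟨Ω ∩ φ ⁻¹' (J ×ˢ univ), hφ.continuousOn.isOpen_inter_preimage hΩ hW,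
    ⟨hp, hpJ, mem_univ _⟩, inter_subset_left, fun q => X (φ q), ?_, ?_⟩
  · exact hX.comp (hφ.mono inter_subset_left) fun q hq => hq.2
  · rintro q ⟨hq, hqW⟩ v w
    have h1 : DifferentiableAt ℝ φ q :=
      (hφ.differentiableOn (by simp)).differentiableAt (hΩ.mem_nhds hq)
    have h2 : DifferentiableAt ℝ X (φ q) :=
      (hX.differentiableOn (by simp)).differentiableAt (hW.mem_nhds hqW)
    have h3 : fderiv ℝ (fun q => X (φ q)) q = (fderiv ℝ X (φ q)).comp (fderiv ℝ φ q) :=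
      fderiv_comp q h2 h1
    rw [h3, hg q hq]
    exact hin (φ q) hqW _ _

end Vale.Agent.Results.P229.KillingMetrics
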