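import Mathlib

/-!
# P229: smooth local realization of moulding metrics

Let `g = E(u) du² + (b(v) + c(v) p(u))² dv²` with smooth `E > 0`, `p` (functions of `u`) and `b`, `c` (functions of
`v`), near a point with `b + c p ≠ 0`. For `E = 1` the curvature is `K = -c(v) p''(u) / (b(v) + c(v) p(u))`: its zero
set may be any crossing family `{c = 0} ∪ {p'' = 0}`, with zeros of infinite order and arbitrary changes of sign.
Then `g` is locally realizable: with `lam > 0` small, `θ' = -c/lam`, `γ' = b (cos θ, sin θ)`,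
`q'² = E - lam² p'²`, take `X(u,v) = (γ(v), 0) + lam p(u) (-sin θ(v), cos θ(v), 0) + q(u) e₃`.
-/

namespace Vale.Agent.Results.P229.MouldingMetrics

open Set MeasureTheory
open scoped Topology ContDiff

private theorem hasD {f : ℝ → ℝ} (hf : Continuous f) (u₀ u : ℝ) :
    HasDerivAt (fun u => ∫ t in u₀..u, f t) (f u) u :=
  intervalIntegral.integral_hasDerivAt_right (hf.intervalIntegrable _ _)
    (hf.stronglyMeasurableAtFilter _ _) hf.continuousAt

private theorem smooth_prim {f : ℝ → ℝ} (hf : Continuous f) {I : Set ℝ} (hI : IsOpen I)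
    (hfI : ContDiffOn ℝ ∞ f I) (u₀ : ℝ) :
    ContDiffOn ℝ ∞ (fun u => ∫ t in u₀..u, f t) I := by
  rw [contDiffOn_infty_iff_deriv_of_isOpen hI]
  refine ⟨fun u _ => (hasD hf u₀ u).differentiableAt.differentiableWithinAt, ?_⟩
  refine hfI.congr fun u _ => (hasD hf u₀ u).deriv

private theorem smooth_prim' {f : ℝ → ℝ} (hf : ContDiff ℝ ∞ f) (u₀ : ℝ) :
    ContDiff ℝ ∞ (fun u => ∫ t in u₀..u, f t) := by
  rw [← contDiffOn_univ]
  exact smooth_prim hf.continuous isOpen_univ hf.contDiffOn u₀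

private theorem dot3 (a b c a' b' c' : ℝ) :
    dotProduct ![a, b, c] ![a', b', c'] = a * a' + b * b' + c * c' := by
  simp [dotProduct, Fin.sum_univ_three]

theorem result (E p b c : ℝ → ℝ) (hE : ContDiff ℝ ∞ E) (hp : ContDiff ℝ ∞ p)
    (hb : ContDiff ℝ ∞ b) (hc : ContDiff ℝ ∞ c) (hE0 : ∀ u, 0 < E u) (u₀ v₀ : ℝ) :
    ∃ U : Set (ℝ × ℝ), IsOpen U ∧ (u₀, v₀) ∈ U ∧ ∃ X : ℝ × ℝ → Fin 3 → ℝ, ContDiffOn ℝ ∞ X U ∧
      ∀ x ∈ U,
        dotProduct (deriv (fun t => X (t, x.2)) x.1) (deriv (fun t => X (t, x.2)) x.1) = E x.1 ∧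
        dotProduct (deriv (fun t => X (t, x.2)) x.1) (deriv (fun t => X (x.1, t)) x.2) = 0 ∧
        dotProduct (deriv (fun t => X (x.1, t)) x.2) (deriv (fun t => X (x.1, t)) x.2) =
          (b x.2 + c x.2 * p x.1) ^ 2 := by
  have hpd : ∀ u, HasDerivAt p (deriv p u) u := fun u =>
    (hp.differentiable (by simp) u).hasDerivAt
  have hp' : ContDiff ℝ ∞ (deriv p) := (contDiff_infty_iff_deriv.1 hp).2
  have hEu := hE0 u₀
  obtain ⟨lam, hl, hlE⟩ : ∃ lam : ℝ, 0 < lam ∧ lam ^ 2 * deriv p u₀ ^ 2 < E u₀ := by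
    refine ⟨√(E u₀ / (2 * (deriv p u₀ ^ 2 + 1))), by positivity, ?_⟩
    rw [Real.sq_sqrt (by positivity), div_mul_eq_mul_div, div_lt_iff₀ (by positivity)]
    nlinarith [sq_nonneg (deriv p u₀)]
  set Q : ℝ → ℝ := fun u => E u - lam ^ 2 * deriv p u ^ 2 with hQ
  have hQs : ContDiff ℝ ∞ Q := hE.sub (contDiff_const.mul (hp'.pow 2))
  have hQ0 : 0 < Q u₀ := by simp only [hQ]; linarith
  set I : Set ℝ := {u | 0 < Q u} with hI
  have hIo : IsOpen I := isOpen_lt continuous_const hQs.continuous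
  have hQc : Continuous fun t => √(Q t) := hQs.continuous.sqrt
  set q : ℝ → ℝ := fun u => ∫ t in u₀..u, √(Q t) with hq
  have hqs : ContDiffOn ℝ ∞ q I :=
    smooth_prim hQc hIo (hQs.contDiffOn.sqrt fun u hu => (ne_of_gt hu)) u₀
  have hqd : ∀ u, HasDerivAt q (√(Q u)) u := hasD hQc u₀
  set θ : ℝ → ℝ := fun v => ∫ t in v₀..v, -(c t / lam) with hθ
  have hcl : ContDiff ℝ ∞ fun t => -(c t / lam) := (hc.div_const lam).neg
  have hθs : ContDiff ℝ ∞ θ := smooth_prim' hcl v₀
  have hθd : ∀ v, HasDerivAt θ (-(c v / lam)) v := hasD hcl.continuous v₀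
  have hbc : ContDiff ℝ ∞ fun t => b t * Real.cos (θ t) := hb.mul hθs.cos
  have hbs : ContDiff ℝ ∞ fun t => b t * Real.sin (θ t) := hb.mul hθs.sin
  set g1 : ℝ → ℝ := fun v => ∫ t in v₀..v, b t * Real.cos (θ t) with hg1
  set g2 : ℝ → ℝ := fun v => ∫ t in v₀..v, b t * Real.sin (θ t) with hg2
  have hg1s : ContDiff ℝ ∞ g1 := smooth_prim' hbc v₀
  have hg2s : ContDiff ℝ ∞ g2 := smooth_prim' hbs v₀
  have hg1d : ∀ v, HasDerivAt g1 (b v * Real.cos (θ v)) v := hasD hbc.continuous v₀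
  have hg2d : ∀ v, HasDerivAt g2 (b v * Real.sin (θ v)) v := hasD hbs.continuous v₀
  set X : ℝ × ℝ → Fin 3 → ℝ := fun x =>
    ![g1 x.2 - lam * p x.1 * Real.sin (θ x.2), g2 x.2 + lam * p x.1 * Real.cos (θ x.2), q x.1]
    with hX
  refine ⟨{x | x.1 ∈ I}, hIo.preimage continuous_fst, hQ0, X, ?_, ?_⟩
  · rw [contDiffOn_pi]
    have h1 : ContDiff ℝ ∞ fun x : ℝ × ℝ => lam * p x.1 :=
      contDiff_const.mul (hp.comp contDiff_fst)
    have h2 : ContDiff ℝ ∞ fun x : ℝ × ℝ => θ x.2 := hθs.comp contDiff_snd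
    intro i
    fin_cases i
    · exact ((hg1s.comp contDiff_snd).sub (h1.mul h2.sin)).contDiffOn
    · exact ((hg2s.comp contDiff_snd).add (h1.mul h2.cos)).contDiffOn
    · exact hqs.comp contDiffOn_fst fun x hx => hx
  · rintro ⟨u, v⟩ hu
    have hu' : 0 < Q u := hu
    have hXu : HasDerivAt (fun t => X (t, v))
        ![-(lam * deriv p u * Real.sin (θ v)), lam * deriv p u * Real.cos (θ v), √(Q u)] u := by
      rw [hasDerivAt_pi]
      intro i
      fin_cases i
      · exact (((hpd u).const_mul lam).mul_const (Real.sin (θ v))).const_sub (g1 v)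
      · exact (((hpd u).const_mul lam).mul_const (Real.cos (θ v))).const_add (g2 v)
      · exact hqd u
    have hXv : HasDerivAt (fun t => X (u, t))
        ![b v * Real.cos (θ v) - lam * p u * (Real.cos (θ v) * -(c v / lam)),
          b v * Real.sin (θ v) + lam * p u * (-Real.sin (θ v) * -(c v / lam)), 0] v := by
      rw [hasDerivAt_pi]
      intro i
      fin_cases i
      · exact (hg1d v).sub ((hθd v).sin.const_mul (lam * p u))
      · exact (hg2d v).add ((hθd v).cos.const_mul (lam * p u))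
      · exact hasDerivAt_const v (q u)
    have hcs := Real.sin_sq_add_cos_sq (θ v)
    have hsQ : √(Q u) ^ 2 = E u - lam ^ 2 * deriv p u ^ 2 := Real.sq_sqrt hu'.le
    have hlc : lam * p u * (c v / lam) = c v * p u := by
      field_simp
    simp only
    rw [hXu.deriv, hXv.deriv, dot3, dot3, dot3]
    refine ⟨?_, ?_, ?_⟩
    · linear_combination (lam ^ 2 * deriv p u ^ 2) * hcs + hsQ
    · ring
    · have h1 : b v * Real.cos (θ v) - lam * p u * (Real.cos (θ v) * -(c v / lam)) =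
          (b v + c v * p u) * Real.cos (θ v) := by
        linear_combination Real.cos (θ v) * hlc
      have h2 : b v * Real.sin (θ v) + lam * p u * (-Real.sin (θ v) * -(c v / lam)) =
          (b v + c v * p u) * Real.sin (θ v) := by
        linear_combination Real.sin (θ v) * hlc
      rw [h1, h2]
      linear_combination (b v + c v * p u) ^ 2 * hcs

end Vale.Agent.Results.P229.MouldingMetrics
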